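import Vale.Agent.P045.Baer.Count

/-!
# P045: a complete pencil up to its two Baer lines is no small cover

Every vertex other than the vertices of the centre meets at most one class on the two missing
lines, and the absent vertices of the centre leave too many classes uncovered.
-/

namespace Vale.P045.Baer

open Finset

namespace Cfg

variable {C : Cfg} {h : ℕ} {ω : Omega C h}

/-- Two different directions separate different index pairs. -/
lemma form_unique [Fact h.Prime] {δ δ' : Option (ZMod h)} {i i' : ZMod h × ZMod h}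
    (h1 : form δ i = form δ i') (h2 : form δ' i = form δ' i') (hne : i ≠ i') : δ = δ' := by
  obtain ⟨u, w⟩ := i
  obtain ⟨u', w'⟩ := i'
  by_contra hd
  refine hne ?_
  rcases δ with _ | j <;> rcases δ' with _ | j' <;> simp only [form] at h1 h2
  · exact absurd rfl hd
  · subst h1
    simp only [sub_left_inj] at h2
    rw [h2]
  · subst h2
    simp only [sub_left_inj] at h1
    rw [h1]
  · have hj : j - j' ≠ 0 := sub_ne_zero.2 fun e => hd (by rw [e])
    have h3 : (j - j') * (u - u') = 0 := by linear_combination h2 - h1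
    have hu : u = u' := sub_eq_zero.1 ((mul_eq_zero.1 h3).resolve_left hj)
    subst hu
    simp only [sub_left_inj] at h1
    rw [h1]

/-- On an edge of a line of `A`, the colour of that line is the colour of the other line. -/
lemma X_colour {z : C.Pt} (hz : z ∈ C.X ω) :
    C.colA ω (C.aOf z) = C.colB ω (C.bOf z) := (mem_X.1 hz).2

lemma deg_good {z : C.Pt} (hz : z ∈ C.good) : C.deg C.A z = 1 ∧ C.deg C.B z = 1 :=
  ⟨(Finset.mem_filter.1 hz).2.2.1, (Finset.mem_filter.1 hz).2.2.2⟩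

lemma aOf_X (hf : Facts C) {z : C.Pt} (hz : z ∈ C.X ω) {a : C.Ln} (ha : a ∈ C.A)
    (h' : z ∈ C.pts a) : C.aOf z = a :=
  hf.aOf_unique z (deg_good (mem_X.1 hz).1).1 a ha h'

lemma bOf_X (hf : Facts C) {z : C.Pt} (hz : z ∈ C.X ω) {b : C.Ln} (hb : b ∈ C.B)
    (h' : z ∈ C.pts b) : C.bOf z = b :=
  hf.bOf_unique z (deg_good (mem_X.1 hz).1).2 b hb h'

/-- A vertex that is no two-sided vertex of the centre covers little on the two lines. -/
lemma one_sided (hC : C.Valid) (hf : Facts C) (hev : C.EvBasic ω) (hmu : 0 ≤ C.mu h)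
    {z0 : C.Pt} {a0 b0 : C.Ln} (ha : a0 ∈ C.A) (hb : b0 ∈ C.B) (x : Vx C h)
    (hline : ∀ m, x = Sum.inl m → m ∈ C.ordinary → z0 ∉ C.pts m)
    (hbox : C.colA ω a0 = C.colB ω b0 → ∀ j : ZMod h,
      x ≠ Sum.inr (Sum.inr (j, C.colA ω a0, form (some j) (ω.2 a0), form (some j) (ω.2 b0)))) :
    ((items ω x ∩ ((C.X ω ∩ C.pts a0).erase z0 ∪ (C.X ω ∩ C.pts b0).erase z0)).card : ℝ) ≤
      21 / 20 * C.mu h + 2 := by
  classical
  rcases x with m | ⟨g, v⟩ | ⟨j, c, v, v'⟩
  · by_cases hm : m ∈ C.ordinary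
    · obtain ⟨hmA, hmB, -⟩ := (Finset.mem_filter.1 hm).2
      have hma : m ≠ a0 := fun e => hmA (e ▸ ha)
      have hmb : m ≠ b0 := fun e => hmB (e ▸ hb)
      obtain ⟨za, -, hza'⟩ := hC.meet m a0 hma
      obtain ⟨zb, -, hzb'⟩ := hC.meet m b0 hmb
      have hsub : items ω (Sum.inl m : Vx C h) ∩
          ((C.X ω ∩ C.pts a0).erase z0 ∪ (C.X ω ∩ C.pts b0).erase z0) ⊆ {za, zb} := by
        intro z hz
        simp only [items, Finset.mem_inter, Finset.mem_filter, Finset.mem_union,
          Finset.mem_erase] at hz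
        obtain ⟨⟨-, -, hzm⟩, ⟨-, -, hzl⟩ | ⟨-, -, hzl⟩⟩ := hz
        · simp [hza' z ⟨hzm, hzl⟩]
        · simp [hzb' z ⟨hzm, hzl⟩]
      have h2 := (Finset.card_le_card hsub).trans Finset.card_le_two
      have h3 : ((items ω (Sum.inl m : Vx C h) ∩
          ((C.X ω ∩ C.pts a0).erase z0 ∪ (C.X ω ∩ C.pts b0).erase z0)).card : ℝ) ≤ 2 := by
        exact_mod_cast h2
      linarith
    · rw [items_inl hm, Finset.empty_inter, Finset.card_empty, Nat.cast_zero]
      positivity
  · refine le_trans (le_trans (Nat.cast_le.2 (Finset.card_le_card Finset.inter_subset_left))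
      (items_own hf hC.disj hev hmu g v)) (by linarith)
  · set T := items ω (Sum.inr (Sum.inr (j, c, v, v')) : Vx C h)
    have hA : ∀ z ∈ T ∩ (C.X ω ∩ C.pts a0).erase z0, c = C.colA ω a0 ∧
        v = form (some j) (ω.2 a0) ∧ form (some j) (ω.2 (C.other a0 z)) = v' := by
      intro z hz
      simp only [T, items, Finset.mem_inter, Finset.mem_filter, Finset.mem_erase] at hz
      obtain ⟨⟨hzX, hc, hv, hv'⟩, -, -, hzl⟩ := hz
      have e := aOf_X hf hzX ha hzl
      rw [e] at hv
      refine ⟨?_, hv.symm, by rw [other, if_pos ha]; exact hv'⟩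
      rw [← hc, colA, v1, e]
    have hB : ∀ z ∈ T ∩ (C.X ω ∩ C.pts b0).erase z0, c = C.colB ω b0 ∧
        v' = form (some j) (ω.2 b0) ∧ form (some j) (ω.2 (C.other b0 z)) = v := by
      intro z hz
      simp only [T, items, Finset.mem_inter, Finset.mem_filter, Finset.mem_erase] at hz
      obtain ⟨⟨hzX, hc, hv, hv'⟩, -, -, hzl⟩ := hz
      have e := bOf_X hf hzX hb hzl
      rw [e] at hv'
      refine ⟨?_, hv'.symm,
        by rw [other, if_neg (Finset.disjoint_right.1 hC.disj hb)]; exact hv⟩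
      rw [← hc, ← e]
      exact X_colour hzX
    rw [Finset.inter_union_distrib_left]
    rcases (T ∩ (C.X ω ∩ C.pts a0).erase z0).eq_empty_or_nonempty with h0 | ⟨z, hz⟩
    · rw [h0, Finset.empty_union]
      have hsub : T ∩ (C.X ω ∩ C.pts b0).erase z0 ⊆
          (C.X ω ∩ C.pts b0).filter fun z => form (some j) (ω.2 (C.other b0 z)) = v := fun z hz =>
        Finset.mem_filter.2 ⟨Finset.mem_of_mem_erase (Finset.mem_inter.1 hz).2, (hB z hz).2.2⟩
      have h1 := (abs_le.1 (hev.cls b0 (Finset.mem_union_right _ hb) (some j) v)).2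
      refine le_trans (Nat.cast_le.2 (Finset.card_le_card hsub)) ?_
      linarith
    · rcases (T ∩ (C.X ω ∩ C.pts b0).erase z0).eq_empty_or_nonempty with h1 | ⟨z', hz'⟩
      · rw [h1, Finset.union_empty]
        have hsub : T ∩ (C.X ω ∩ C.pts a0).erase z0 ⊆
            (C.X ω ∩ C.pts a0).filter fun z => form (some j) (ω.2 (C.other a0 z)) = v' :=
          fun z hz =>
            Finset.mem_filter.2 ⟨Finset.mem_of_mem_erase (Finset.mem_inter.1 hz).2, (hA z hz).2.2⟩
        have h1 := (abs_le.1 (hev.cls a0 (Finset.mem_union_left _ ha) (some j) v')).2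
        refine le_trans (Nat.cast_le.2 (Finset.card_le_card hsub)) ?_
        linarith
      · obtain ⟨rfl, rfl, -⟩ := hA z hz
        obtain ⟨e, rfl, -⟩ := hB z' hz'
        exact absurd rfl (hbox e j)

/-- A vertex of the centre meets only its own class away from the cell of the centre. -/
lemma special_class [Fact h.Prime] (hC : C.Valid) (hf : Facts C) {z0 : C.Pt} {a0 b0 : C.Ln}
    (ha : a0 ∈ C.A) (hb : b0 ∈ C.B) {z : C.Pt} (hne : z ≠ z0)
    (hza : z0 ∈ C.pts a0) (hzb : z0 ∈ C.pts b0) (s : Bool)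
    (hzl : z ∈ C.pts (if s then a0 else b0)) {δ : Option (ZMod h)}
    (hδ : form δ (ω.2 (C.other (if s then a0 else b0) z)) =
      form δ (ω.2 (if s then b0 else a0)))
    (hcell : ω.2 (C.other (if s then a0 else b0) z) ≠ ω.2 (if s then b0 else a0)) :
    (C.Mem ω z (Sum.inr (Sum.inl (a0, form none (ω.2 b0)))) → s = true ∧ δ = none) ∧
    (C.Mem ω z (Sum.inr (Sum.inl (b0, form none (ω.2 a0)))) → s = false ∧ δ = none) ∧
    ∀ j, C.Mem ω z (Sum.inr (Sum.inr
      (j, C.colA ω a0, form (some j) (ω.2 a0), form (some j) (ω.2 b0)))) → δ = some j := by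
  have hab : a0 ≠ b0 := fun e => Finset.disjoint_left.1 hC.disj ha (e ▸ hb)
  have hnot : ¬ (z ∈ C.pts a0 ∧ z ∈ C.pts b0) := fun ⟨h1, h2⟩ =>
    hne ((hC.meet a0 b0 hab).unique ⟨h1, h2⟩ ⟨hza, hzb⟩)
  have hbA : b0 ∉ C.A := Finset.disjoint_right.1 hC.disj hb
  have haB : a0 ∉ C.B := Finset.disjoint_left.1 hC.disj ha
  refine ⟨?_, ?_, ?_⟩
  · rintro (⟨-, e, hv⟩ | ⟨h0, -⟩)
    · have hzA : z ∈ C.pts a0 := e ▸ (hf.aOf_mem z).2
      cases s
      · exact absurd ⟨hzA, by simpa using hzl⟩ hnot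
      · simp only [if_true, other, if_pos ha] at hδ hcell
        exact ⟨rfl, form_unique hδ hv hcell⟩
    · exact absurd h0 haB
  · rintro (⟨h0, -⟩ | ⟨-, e, hv⟩)
    · exact absurd h0 hbA
    · have hzB : z ∈ C.pts b0 := e ▸ (hf.bOf_mem z).2
      cases s
      · simp only [Bool.false_eq_true, if_false, other, if_neg hbA] at hδ hcell
        exact ⟨rfl, form_unique hδ hv hcell⟩
      · exact absurd ⟨by simpa using hzl, hzB⟩ hnot
  · rintro j ⟨-, hv, hv'⟩
    cases s
    · simp only [Bool.false_eq_true, if_false, other, if_neg hbA] at hδ hcell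
      exact form_unique hδ hv hcell
    · simp only [if_true, other, if_pos ha] at hδ hcell
      exact form_unique hδ hv' hcell

/-- A cover bound: each vertex of `R` meets at most `c` points of `W`. -/
lemma cover_card_le {κ : Type*} [DecidableEq C.Pt] (W : Finset C.Pt) (R : Finset κ)
    (S : κ → Finset C.Pt) (c : ℝ) (hcov : ∀ z ∈ W, ∃ x ∈ R, z ∈ S x)
    (hc : ∀ x ∈ R, ((S x ∩ W).card : ℝ) ≤ c) : (W.card : ℝ) ≤ (R.card : ℝ) * c := by
  classical
  have hsub : W ⊆ R.biUnion fun x => S x ∩ W := fun z hz => by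
    obtain ⟨x, hx, hzx⟩ := hcov z hz
    exact Finset.mem_biUnion.2 ⟨x, hx, Finset.mem_inter.2 ⟨hzx, hz⟩⟩
  have h1 := (Finset.card_le_card hsub).trans Finset.card_biUnion_le
  calc (W.card : ℝ) ≤ ((∑ x ∈ R, (S x ∩ W).card : ℕ) : ℝ) := Nat.cast_le.2 h1
    _ = ∑ x ∈ R, ((S x ∩ W).card : ℝ) := Nat.cast_sum _ _
    _ ≤ R.card • c := Finset.sum_le_card_nsmul R _ _ hc
    _ = (R.card : ℝ) * c := nsmul_eq_mul _ _

/-- The class count on the two missing lines. -/
theorem two_lines_false [Fact h.Prime] (hC : C.Valid) (hf : Facts C) (hev : C.EvBasic ω)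
    (z0 : C.Pt) (a0 b0 : C.Ln) (ha : a0 ∈ C.A) (hb : b0 ∈ C.B) (hza : z0 ∈ C.pts a0)
    (hzb : z0 ∈ C.pts b0) (hA1 : C.deg C.A z0 = 1) (hB1 : C.deg C.B z0 = 1)
    (R : Finset (Vx C h)) (hR2 : R.card ≤ h + 2)
    (hR1 : z0 ∉ C.pts C.inf → R.card ≤ h + 1)
    (hlines : ∀ m, (Sum.inl m : Vx C h) ∈ R → m ∈ C.ordinary → z0 ∉ C.pts m)
    (hcov : ∀ z ∈ C.X ω, z ≠ z0 → (z ∈ C.pts a0 ∨ z ∈ C.pts b0) → ∃ x ∈ R, C.Mem ω z x)
    (hload : ∀ l, l = a0 ∨ l = b0 → 9 / 10 * C.nn ≤ (((C.X ω ∩ C.pts l).erase z0).card : ℝ))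
    (hn : ((h : ℝ) + 2) * (21 / 20 * C.mu h + 2) < 9 / 5 * C.nn)
    (hmu : Real.sqrt (C.p : ℝ) + 1 < 17 / 40 * C.mu h) : False := by
  classical
  have hmu0 : 0 ≤ C.mu h := by
    have := Real.sqrt_nonneg (C.p : ℝ)
    linarith
  have hab : a0 ≠ b0 := fun e => Finset.disjoint_left.1 hC.disj ha (e ▸ hb)
  have hbA : b0 ∉ C.A := Finset.disjoint_right.1 hC.disj hb
  by_cases hcol : C.colA ω a0 = C.colB ω b0
  swap
  · set Ta := (C.X ω ∩ C.pts a0).erase z0 with hTa
    set Tb := (C.X ω ∩ C.pts b0).erase z0 with hTb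
    have hdis : Disjoint Ta Tb := by
      refine Finset.disjoint_left.2 fun z h1 h2 => ?_
      rw [hTa, Finset.mem_erase, Finset.mem_inter] at h1
      rw [hTb, Finset.mem_erase, Finset.mem_inter] at h2
      exact h1.1 ((hC.meet a0 b0 hab).unique ⟨h1.2.2, h2.2.2⟩ ⟨hza, hzb⟩)
    have hle := cover_card_le (Ta ∪ Tb) R (items ω) (21 / 20 * C.mu h + 2) ?_ ?_
    · rw [Finset.card_union_of_disjoint hdis, Nat.cast_add] at hle
      have h3 : (R.card : ℝ) * (21 / 20 * C.mu h + 2) ≤
          ((h : ℝ) + 2) * (21 / 20 * C.mu h + 2) :=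
        mul_le_mul_of_nonneg_right (by exact_mod_cast hR2) (by linarith)
      have h4 : 9 / 10 * C.nn ≤ (Ta.card : ℝ) := hload a0 (Or.inl rfl)
      have h5 : 9 / 10 * C.nn ≤ (Tb.card : ℝ) := hload b0 (Or.inr rfl)
      linarith
    · intro z hz
      simp only [hTa, hTb, Finset.mem_union, Finset.mem_erase, Finset.mem_inter] at hz
      obtain ⟨hzne, hzX, hzl⟩ : z ≠ z0 ∧ z ∈ C.X ω ∧ (z ∈ C.pts a0 ∨ z ∈ C.pts b0) := by
        rcases hz with ⟨h1, h2, h3⟩ | ⟨h1, h2, h3⟩
        · exact ⟨h1, h2, Or.inl h3⟩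
        · exact ⟨h1, h2, Or.inr h3⟩
      obtain ⟨x, hx, hxm⟩ := hcov z hzX hzne hzl
      exact ⟨x, hx, Finset.mem_filter.2 ⟨hzX, hxm⟩⟩
    · exact fun x hx => one_sided hC hf hev hmu0 ha hb x
        (fun m e => hlines m (e ▸ hx)) (fun e => absurd e hcol)
  -- the centre is an edge
  have ea : C.aOf z0 = a0 := hf.aOf_unique z0 hA1 a0 ha hza
  have eb : C.bOf z0 = b0 := hf.bOf_unique z0 hB1 b0 hb hzb
  have hfin : z0 ∉ C.pts C.inf := by
    intro hinf
    have hv := hf.var_inf z0 hinf hA1 hB1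
    rw [v1, v2, ea, eb] at hv
    rw [colA, colB, ← hv] at hcol
    have h0 : c0 = 0 := left_eq_add.1 hcol
    exact absurd (congrFun h0 0) (by simp [c0])
  have hR := hR1 hfin
  let line : Bool → C.Ln := fun s => if s then a0 else b0
  let opp : Bool → C.Ln := fun s => if s then b0 else a0
  let spec : Bool × Option (ZMod h) → Vx C h := fun i => match i with
    | (true, none) => Sum.inr (Sum.inl (a0, form none (ω.2 b0)))
    | (false, none) => Sum.inr (Sum.inl (b0, form none (ω.2 a0)))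
    | (_, some j) =>
        Sum.inr (Sum.inr (j, C.colA ω a0, form (some j) (ω.2 a0), form (some j) (ω.2 b0)))
  let cl : Bool × Option (ZMod h) → Finset C.Pt := fun i =>
    (C.X ω ∩ C.pts (line i.1)).filter fun z =>
      form i.2 (ω.2 (C.other (line i.1) z)) = form i.2 (ω.2 (opp i.1)) ∧
      ω.2 (C.other (line i.1) z) ≠ ω.2 (opp i.1)
  have hne0 : ∀ i, z0 ∉ cl i := by
    rintro ⟨s, δ⟩ hz
    have h2 := (Finset.mem_filter.1 hz).2.2
    cases s
    · simp only [line, opp, Bool.false_eq_true, if_false, other, if_neg hbA, ea] at h2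
      exact h2 rfl
    · simp only [line, opp, if_true, other, if_pos ha, eb] at h2
      exact h2 rfl
  have hline : ∀ s, line s ∈ C.A ∪ C.B := by
    intro s; cases s
    · exact Finset.mem_union_right _ hb
    · exact Finset.mem_union_left _ ha
  have hcl : ∀ i, 19 / 20 * C.mu h - Real.sqrt (C.p : ℝ) ≤ ((cl i).card : ℝ) := by
    intro i
    have h1 := (abs_le.1 (hev.cls _ (hline i.1) i.2 (form i.2 (ω.2 (opp i.1))))).1
    have h2 := hev.cell _ (hline i.1) (ω.2 (opp i.1))
    have hsub : ((C.X ω ∩ C.pts (line i.1)).filter fun z =>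
          form i.2 (ω.2 (C.other (line i.1) z)) = form i.2 (ω.2 (opp i.1))) ⊆
        cl i ∪ ((C.X ω ∩ C.pts (line i.1)).filter fun z =>
          ω.2 (C.other (line i.1) z) = ω.2 (opp i.1)) := by
      intro z hz
      rw [Finset.mem_filter] at hz
      by_cases he : ω.2 (C.other (line i.1) z) = ω.2 (opp i.1)
      · exact Finset.mem_union_right _ (Finset.mem_filter.2 ⟨hz.1, he⟩)
      · exact Finset.mem_union_left _ (Finset.mem_filter.2 ⟨hz.1, hz.2, he⟩)
    have h3 := (Finset.card_le_card hsub).trans (Finset.card_union_le _ _)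
    have h4 : (((C.X ω ∩ C.pts (line i.1)).filter fun z =>
          form i.2 (ω.2 (C.other (line i.1) z)) = form i.2 (ω.2 (opp i.1))).card : ℝ) ≤
        ((cl i).card : ℝ) + (((C.X ω ∩ C.pts (line i.1)).filter fun z =>
          ω.2 (C.other (line i.1) z) = ω.2 (opp i.1)).card : ℝ) := by exact_mod_cast h3
    linarith
  let Abs := (univ : Finset (Bool × Option (ZMod h))).filter fun i => spec i ∉ R
  let Sp := R ∩ univ.image spec
  let N := R \ Sp
  have hdisj : (Abs : Set (Bool × Option (ZMod h))).PairwiseDisjoint cl := by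
    intro i _ i' _ hii
    refine Finset.disjoint_left.2 fun z hz hz' => hii ?_
    obtain ⟨s, δ⟩ := i
    obtain ⟨s', δ'⟩ := i'
    have hne := fun e : z = z0 => hne0 (s, δ) (e ▸ hz)
    simp only [cl, Finset.mem_filter, Finset.mem_inter] at hz hz'
    have hs : s = s' := by
      rcases s <;> rcases s' <;> try rfl
      · exact absurd ((hC.meet a0 b0 hab).unique ⟨hz'.1.2, hz.1.2⟩ ⟨hza, hzb⟩) hne
      · exact absurd ((hC.meet a0 b0 hab).unique ⟨hz.1.2, hz'.1.2⟩ ⟨hza, hzb⟩) hne
    subst hs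
    rw [form_unique hz.2.1 hz'.2.1 hz.2.2]
  set W := Abs.biUnion cl with hW
  have hWlow : (Abs.card : ℝ) * (19 / 20 * C.mu h - Real.sqrt (C.p : ℝ)) ≤ (W.card : ℝ) := by
    rw [hW, Finset.card_biUnion hdisj, Nat.cast_sum, ← nsmul_eq_mul]
    exact Finset.card_nsmul_le_sum _ _ _ fun i _ => hcl i
  have hWsub : W ⊆ (C.X ω ∩ C.pts a0).erase z0 ∪ (C.X ω ∩ C.pts b0).erase z0 := by
    intro z hz
    obtain ⟨⟨s, δ⟩, -, hzi⟩ := Finset.mem_biUnion.1 hz
    have hne : z ≠ z0 := fun e => hne0 (s, δ) (e ▸ hzi)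
    have h1 := (Finset.mem_filter.1 hzi).1
    cases s
    · exact Finset.mem_union_right _ (Finset.mem_erase.2 ⟨hne, h1⟩)
    · exact Finset.mem_union_left _ (Finset.mem_erase.2 ⟨hne, h1⟩)
  have hWcov : ∀ z ∈ W, ∃ x ∈ N, z ∈ items ω x := by
    intro z hz
    obtain ⟨⟨s, δ⟩, hi, hzi⟩ := Finset.mem_biUnion.1 hz
    have hne : z ≠ z0 := fun e => hne0 (s, δ) (e ▸ hzi)
    simp only [cl, Finset.mem_filter, Finset.mem_inter] at hzi
    obtain ⟨⟨hzX, hzl⟩, hδ, hcell⟩ := hzi
    obtain ⟨x, hx, hxm⟩ := hcov z hzX hne (by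
      cases s
      · exact Or.inr hzl
      · exact Or.inl hzl)
    refine ⟨x, Finset.mem_sdiff.2 ⟨hx, fun hxs => (Finset.mem_filter.1 hi).2 ?_⟩,
      Finset.mem_filter.2 ⟨hzX, hxm⟩⟩
    obtain ⟨⟨s', δ'⟩, -, rfl⟩ := Finset.mem_image.1 (Finset.mem_inter.1 hxs).2
    obtain ⟨k1, k2, k3⟩ := special_class hC hf ha hb hne hza hzb s hzl hδ hcell
    rcases δ' with _ | j
    · cases s'
      · obtain ⟨rfl, rfl⟩ := k2 hxm
        exact hx
      · obtain ⟨rfl, rfl⟩ := k1 hxm
        exact hx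
    · have hj : δ = some j := k3 j (by cases s' <;> exact hxm)
      subst hj
      cases s <;> cases s' <;> exact hx
  have hWhigh : (W.card : ℝ) ≤ (N.card : ℝ) * (21 / 20 * C.mu h + 2) := by
    refine cover_card_le W N (items ω) _ hWcov fun x hx => ?_
    obtain ⟨hxR, hxS⟩ := Finset.mem_sdiff.1 hx
    refine le_trans (Nat.cast_le.2 (Finset.card_le_card
      (Finset.inter_subset_inter_left hWsub))) ?_
    refine one_sided hC hf hev hmu0 ha hb x (fun m e => hlines m (e ▸ hxR))
      fun _ j e => hxS (Finset.mem_inter.2 ⟨hxR, Finset.mem_image.2 ⟨(true, some j), ?_, e.symm⟩⟩)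
    exact Finset.mem_univ _
  -- counting of the present and absent vertices of the centre
  have hpres : (univ.filter fun i : Bool × Option (ZMod h) => spec i ∈ R).card ≤ 2 * Sp.card := by
    let g : Vx C h → Option (ZMod h) := fun x => match x with
      | Sum.inr (Sum.inr (j, _)) => some j
      | _ => none
    have hg : ∀ i, g (spec i) = i.2 := by
      rintro ⟨s, _ | j⟩ <;> cases s <;> rfl
    have hsub : (univ.filter fun i : Bool × Option (ZMod h) => spec i ∈ R) ⊆
        (univ : Finset Bool) ×ˢ Sp.image g := by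
      intro i hi
      refine Finset.mem_product.2 ⟨Finset.mem_univ _, Finset.mem_image.2 ⟨spec i, ?_, hg i⟩⟩
      exact Finset.mem_inter.2
        ⟨(Finset.mem_filter.1 hi).2, Finset.mem_image_of_mem _ (Finset.mem_univ _)⟩
    refine (Finset.card_le_card hsub).trans ?_
    rw [Finset.card_product, Finset.card_univ, Fintype.card_bool]
    exact Nat.mul_le_mul_left 2 Finset.card_image_le
  have hall : (univ.filter fun i : Bool × Option (ZMod h) => spec i ∈ R).card + Abs.card =
      2 * (h + 1) := by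
    rw [Finset.card_filter_add_card_filter_not (fun i => spec i ∈ R), Finset.card_univ,
      Fintype.card_prod, Fintype.card_bool, Fintype.card_option, ZMod.card]
  have hN : N.card + Sp.card = R.card :=
    Finset.card_sdiff_add_card_eq_card Finset.inter_subset_left
  have hAbs : 1 ≤ Abs.card := by
    by_contra h0
    have hempty : Abs = ∅ := Finset.card_eq_zero.1 (by omega)
    have hin : ∀ i, spec i ∈ R := fun i => by
      by_contra hi
      have : i ∈ Abs := Finset.mem_filter.2 ⟨Finset.mem_univ _, hi⟩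
      rw [hempty] at this
      simp at this
    let e : Option (Option (ZMod h)) → Vx C h := fun o => match o with
      | none => spec (true, none)
      | some δ => spec (false, δ)
    have hinj : Function.Injective e := by
      rintro (_ | _ | j) (_ | _ | j') he <;>
        simp [e, spec, hab, hab.symm] at he ⊢
      exact he.1
    have hc := Finset.card_le_card_of_injOn e (s := (univ : Finset (Option (Option (ZMod h)))))
      (t := R) (fun o _ => by rcases o with _ | δ; exacts [hin (true, none), hin (false, δ)]) hinj.injOn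
    rw [Finset.card_univ, Fintype.card_option, Fintype.card_option, ZMod.card] at hc
    omega
  have h2N : 2 * N.card ≤ Abs.card := by omega
  have h2R : 2 * (N.card : ℝ) ≤ (Abs.card : ℝ) := by exact_mod_cast h2N
  have h1R : (1 : ℝ) ≤ (Abs.card : ℝ) := by exact_mod_cast hAbs
  have hprod : 2 * (N.card : ℝ) * (21 / 20 * C.mu h + 2) ≤
      (Abs.card : ℝ) * (21 / 20 * C.mu h + 2) :=
    mul_le_mul_of_nonneg_right h2R (by linarith)
  have hpos : 0 < (Abs.card : ℝ) * (17 / 40 * C.mu h - Real.sqrt (C.p : ℝ) - 1) :=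
    mul_pos (by linarith) (by linarith)
  linarith

end Cfg

end Vale.P045.Baer
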