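import Vale.Agent.P045.Baer.Large

/-!
# P045: outside a very rich pencil a small cover has few lines
-/

namespace Vale.P045.Baer

open Finset

/-- Arithmetic of the pencil inequality. -/
theorem pencil_arith {p L k F O Ov : ℝ} (hp : 0 < p) (hL : 1 ≤ L) (hk : p ^ 2 / L ^ 20 ≤ k)
    (hF : k / 2 ≤ F) (hO : 0 ≤ O) (hpen : 97 / 100 * O * F / 128 ≤ Ov)
    (hov : Ov ≤ 3 * p ^ 2 * p * L) : O ≤ 800 * p * L ^ 21 := by
  have hL20 : 0 < L ^ 20 := by positivity
  have h1 : p ^ 2 ≤ k * L ^ 20 := (div_le_iff₀ hL20).1 hk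
  have h2 : O * p ^ 2 ≤ O * ((2 * F) * L ^ 20) := by
    refine mul_le_mul_of_nonneg_left (h1.trans ?_) hO
    exact mul_le_mul_of_nonneg_right (by linarith) hL20.le
  have h3 : O * F * L ^ 20 ≤ (3 * p ^ 2 * p * L * (128 * 100 / 97)) * L ^ 20 :=
    mul_le_mul_of_nonneg_right (by linarith) hL20.le
  have h4 : 0 ≤ p ^ 3 * L ^ 21 := by positivity
  refine le_of_mul_le_mul_left ?_ (by positivity : (0 : ℝ) < p ^ 2)
  linarith

/-- The lines of a small cover off a very rich point number at most `√q (log q) ^ 30`. -/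
theorem rest_le (hP : PencilStmt) :
    ForLarge fun C h _ _ => ∀ ω : Omega C h, C.Ev ω → ∀ U : Finset C.Ln, U ⊆ C.ordinary →
      (C.Ov ω U : ℝ) ≤ 3 * (C.q : ℝ) * Real.sqrt (C.q : ℝ) * C.lg →
      ∀ z0 : C.Pt, (C.q : ℝ) / C.lg ^ 20 ≤ (C.f U z0 : ℝ) →
      ((U \ C.linesIn U z0).card : ℝ) ≤ (C.p : ℝ) * C.lg ^ 30 := by
  obtain ⟨P1, hP⟩ := hP
  obtain ⟨P2, hlg⟩ := lg_ge ((2 * 10 ^ 8) ^ 5 * 800)
  obtain ⟨P3, hpow⟩ := lg_pow_le ((2 * 10 ^ 8) ^ 10 + 4) 20
  refine ⟨P1 + P2 + P3 + 2, fun C h _ _ hset hp ω hev U hU hov z0 hk => ?_⟩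
  classical
  set F := C.linesIn U z0 with hFdef
  set O := U \ F with hOdef
  have hL : (2 * 10 ^ 8) ^ 5 * 800 ≤ C.lg := hlg C (by omega)
  have hL1 : 1 ≤ C.lg := le_trans (by norm_num) hL
  have hM := hpow C (by omega)
  have hp0 : (0 : ℝ) < C.p := by
    have : 0 < C.p := by omega
    exact_mod_cast this
  rw [C.sqrt_q, C.q_cast] at hov
  rw [C.q_cast] at hk
  have hT : (C.tg : ℝ) ^ 5 ≤ (2 * 10 ^ 8) ^ 5 * C.lg ^ 5 := by
    rw [← mul_pow]
    refine pow_le_pow_left₀ (Nat.cast_nonneg _) ?_ 5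
    have := Nat.ceil_lt_add_one (show (0 : ℝ) ≤ 10 ^ 8 * C.lg by positivity)
    rw [Cfg.tg]
    linarith
  have hT10 : (C.tg : ℝ) ^ 5 * (C.tg : ℝ) ^ 5 ≤ (C.p : ℝ) := by
    refine le_trans ?_ hM
    calc (C.tg : ℝ) ^ 5 * (C.tg : ℝ) ^ 5
        ≤ ((2 * 10 ^ 8) ^ 5 * C.lg ^ 5) * ((2 * 10 ^ 8) ^ 5 * C.lg ^ 5) :=
          mul_le_mul hT hT (by positivity) (by positivity)
      _ = (2 * 10 ^ 8) ^ 10 * C.lg ^ 10 := by ring
      _ ≤ ((2 * 10 ^ 8) ^ 10 + 4) * C.lg ^ 20 :=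
          mul_le_mul (by linarith) (pow_le_pow_right₀ hL1 (by norm_num)) (by positivity)
            (by positivity)
  have hT5 : (C.tg : ℝ) ^ 5 + 2 ≤ (C.f U z0 : ℝ) / 2 := by
    have h1 : (C.p : ℝ) * (((2 * 10 ^ 8) ^ 10 + 4) * C.lg ^ 20) ≤ (C.p : ℝ) * C.p :=
      mul_le_mul_of_nonneg_left hM hp0.le
    have h2 : (C.p : ℝ) * ((2 * 10 ^ 8) ^ 10 + 4) ≤ (C.f U z0 : ℝ) := by
      refine le_trans ((le_div_iff₀ (by positivity)).2 ?_) hk
      linarith
    have h4 : (1 : ℝ) ≤ (C.p : ℝ) := by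
      have : 1 ≤ C.p := by omega
      exact_mod_cast this
    have h5 : (C.tg : ℝ) ^ 5 ≤ 1 + (C.p : ℝ) := by
      have h0 : (0 : ℝ) ≤ (C.tg : ℝ) ^ 5 := by positivity
      nlinarith
    nlinarith
  have hsub : F ⊆ U := Finset.filter_subset _ _
  have havoid : ∀ l ∈ O, z0 ∉ C.pts l := fun l hl hz =>
    (Finset.mem_sdiff.1 hl).2 (Finset.mem_filter.2 ⟨(Finset.mem_sdiff.1 hl).1, hz⟩)
  have hL9 : (800 : ℝ) * C.lg ^ 21 ≤ C.lg ^ 30 := by
    calc (800 : ℝ) * C.lg ^ 21 ≤ C.lg ^ 9 * C.lg ^ 21 := by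
          refine mul_le_mul_of_nonneg_right ?_ (by positivity)
          exact le_trans (le_trans (by norm_num) hL) (le_self_pow₀ hL1 (by norm_num))
      _ = C.lg ^ 30 := by ring
  rcases Classical.em (∀ w, C.f O w * C.tg ^ 5 ≤ O.card) with hA | hA
  · have hF5 : C.tg ^ 5 ≤ F.card := by
      have : (C.tg : ℝ) ^ 5 ≤ (F.card : ℝ) := by
        have h0 : (0 : ℝ) ≤ (C.f U z0 : ℝ) := Nat.cast_nonneg _
        change (C.tg : ℝ) ^ 5 ≤ (C.f U z0 : ℝ)
        linarith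
      exact_mod_cast this
    have hpen := hP C h hset (by omega) ω hev U F O hU hsub Finset.sdiff_subset
      Finset.disjoint_sdiff z0 (fun m hm => (Finset.mem_filter.1 hm).2) havoid hF5
      (fun m _ w _ => hA w)
    have h0 : (0 : ℝ) ≤ (C.f U z0 : ℝ) := Nat.cast_nonneg _
    have := pencil_arith hp0 hL1 hk (F := (C.f U z0 : ℝ)) (by linarith) (Nat.cast_nonneg O.card)
      hpen hov
    exact this.trans (by linarith [mul_le_mul_of_nonneg_left hL9 hp0.le])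
  · simp only [not_forall, not_le] at hA
    obtain ⟨w, hw⟩ := hA
    rcases le_or_gt O.card (C.tg ^ 5 * C.tg ^ 5) with hsmall | hbig
    · have h1 : (O.card : ℝ) ≤ (C.tg : ℝ) ^ 5 * (C.tg : ℝ) ^ 5 := by exact_mod_cast hsmall
      refine h1.trans (hT10.trans ?_)
      exact le_mul_of_one_le_right hp0.le (one_le_pow₀ hL1)
    set O' := C.linesIn O w with hO'def
    set F' := F.filter fun m => w ∉ C.pts m with hF'def
    have hT_le : C.tg ^ 5 ≤ C.f O w := by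
      by_contra hc
      have := Nat.mul_le_mul_right (C.tg ^ 5) (Nat.le_of_lt (Nat.not_le.1 hc))
      omega
    have hwz : w ≠ z0 := by
      rintro rfl
      have : C.f O w = 0 := Finset.card_eq_zero.2 (Finset.filter_eq_empty_iff.2 havoid)
      rw [this, zero_mul] at hw
      omega
    have hone : (F.filter fun m => w ∈ C.pts m).card ≤ 1 := by
      rw [Finset.card_le_one]
      intro m hm m' hm'
      rw [Finset.mem_filter] at hm hm'
      exact (hset.valid.join w z0 hwz).unique ⟨hm.2, (Finset.mem_filter.1 hm.1).2⟩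
        ⟨hm'.2, (Finset.mem_filter.1 hm'.1).2⟩
    have hsplit := Finset.card_filter_add_card_filter_not (s := F) (fun m => w ∈ C.pts m)
    rw [← hF'def] at hsplit
    have hF'2 : (C.f U z0 : ℝ) - 1 ≤ (F'.card : ℝ) := by
      have h1 : F.card ≤ F'.card + 1 := by omega
      have h2 : (F.card : ℝ) ≤ (F'.card : ℝ) + 1 := by exact_mod_cast h1
      change (F.card : ℝ) - 1 ≤ (F'.card : ℝ)
      linarith
    have hT0 : (0 : ℝ) ≤ (C.tg : ℝ) ^ 5 := by positivity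
    have hF5 : C.tg ^ 5 ≤ F'.card := by
      have : (C.tg : ℝ) ^ 5 ≤ (F'.card : ℝ) := by linarith
      exact_mod_cast this
    have hO'O : O' ⊆ O := Finset.filter_subset _ _
    have hpen := hP C h hset (by omega) ω hev U F' O' hU ((Finset.filter_subset _ _).trans hsub)
      (hO'O.trans Finset.sdiff_subset)
      (Finset.disjoint_of_subset_left (Finset.filter_subset _ _)
        (Finset.disjoint_of_subset_right hO'O Finset.disjoint_sdiff))
      z0 (fun m hm => (Finset.mem_filter.1 (Finset.mem_filter.1 hm).1).2)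
      (fun l hl => havoid l (hO'O hl)) hF5 (by
        intro m hm w' hw'
        have hne : w' ≠ w := fun e => (Finset.mem_filter.1 hm).2 (e ▸ hw')
        have h1 : C.f O' w' ≤ 1 := by
          refine Finset.card_le_one.2 fun l hl l' hl' => ?_
          rw [Cfg.linesIn, Finset.mem_filter] at hl hl'
          exact (hset.valid.join w' w hne).unique ⟨hl.2, (Finset.mem_filter.1 hl.1).2⟩
            ⟨hl'.2, (Finset.mem_filter.1 hl'.1).2⟩
        calc C.f O' w' * C.tg ^ 5 ≤ 1 * C.tg ^ 5 := Nat.mul_le_mul_right _ h1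
          _ ≤ O'.card := by rw [one_mul]; exact hT_le)
    have h800 := pencil_arith hp0 hL1 hk (F := (F'.card : ℝ)) (by linarith)
      (Nat.cast_nonneg O'.card) hpen hov
    have h1 : (O.card : ℝ) ≤ (O'.card : ℝ) * (C.tg : ℝ) ^ 5 := by exact_mod_cast hw.le
    refine h1.trans ?_
    calc (O'.card : ℝ) * (C.tg : ℝ) ^ 5
        ≤ (800 * (C.p : ℝ) * C.lg ^ 21) * ((2 * 10 ^ 8) ^ 5 * C.lg ^ 5) :=
          mul_le_mul h800 hT hT0 (by positivity)
      _ = ((2 * 10 ^ 8) ^ 5 * 800) * ((C.p : ℝ) * C.lg ^ 26) := by ring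
      _ ≤ C.lg * ((C.p : ℝ) * C.lg ^ 26) := mul_le_mul_of_nonneg_right hL (by positivity)
      _ = (C.p : ℝ) * C.lg ^ 27 := by ring
      _ ≤ (C.p : ℝ) * C.lg ^ 30 :=
          mul_le_mul_of_nonneg_left (pow_le_pow_right₀ hL1 (by norm_num)) hp0.le

end Vale.P045.Baer
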